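import Mathlib

/-!
# P112, chapter (T), block T1: the tile-tile kernel

`Ksc K j t = 2^j K (2^j t)`, `ker K ψ j z u ζ` is the kernel of `T_j` at a point `z` where the
slope of the field is `u`, `kap` is the kernel of `S_j S_{j'}^*`.
-/

open MeasureTheory Set
open scoped ContDiff

namespace Vale.Agent.P112.H601

/-- `K_j (t) = 2^j K (2^j t)` -/
noncomputable def Ksc (K : ℝ → ℝ) (j : ℕ) (t : ℝ) : ℝ := 2 ^ j * K (2 ^ j * t)

/-- the kernel `k_j (z; ζ)` of `T_j` at a point `z` at which the slope is `u` -/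
noncomputable def ker (K ψ : ℝ → ℝ) (j : ℕ) (z : ℝ × ℝ) (u : ℝ) (ζ : ℝ × ℝ) : ℝ :=
  Ksc K j (z.1 - ζ.1) * ψ (z.2 - ζ.2 - (z.1 - ζ.1) * u)

/-- the tile-tile kernel `κ(z,z') = ∫ k_j(z;ζ) k_{j'}(z';ζ) dζ` -/
noncomputable def kap (K ψ : ℝ → ℝ) (j j' : ℕ) (z : ℝ × ℝ) (u : ℝ) (z' : ℝ × ℝ) (u' : ℝ) : ℝ :=
  ∫ ζ : ℝ × ℝ, ker K ψ j z u ζ * ker K ψ j' z' u' ζ

section Ibp

theorem smooth_iter {F : ℝ → ℝ} (hF : ContDiff ℝ ∞ F) (M : ℕ) :
    ContDiff ℝ ∞ (iteratedDeriv M F) := by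
  have h := hF.iterate_deriv M
  rwa [← iteratedDeriv_eq_iterate] at h

/-- `M`-fold integration by parts. -/
theorem ibp (M : ℕ) : ∀ (F H : ℝ → ℝ), ContDiff ℝ ∞ F → HasCompactSupport F →
    ContDiff ℝ ∞ H →
    ∫ x, F x * iteratedDeriv M H x = (-1) ^ M * ∫ x, iteratedDeriv M F x * H x := by
  induction M with
  | zero => intro F H _ _ _; simp
  | succ M ih =>
    intro F H hF hFs hH
    have hH' : ContDiff ℝ ∞ (iteratedDeriv M H) := smooth_iter hH M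
    have hF' : ContDiff ℝ ∞ (deriv F) := by
      have h := hF.iterate_deriv 1
      simpa using h
    have hF's : HasCompactSupport (deriv F) := hFs.deriv
    have h1 : ∫ x, F x * iteratedDeriv (M + 1) H x = - ∫ x, deriv F x * iteratedDeriv M H x := by
      have hd : ∀ x, HasDerivAt (iteratedDeriv M H) (iteratedDeriv (M + 1) H x) x := by
        intro x
        rw [iteratedDeriv_succ]
        exact ((hH'.differentiable (by simp)) x).hasDerivAt
      have hdF : ∀ x, HasDerivAt F (deriv F x) x :=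
        fun x => ((hF.differentiable (by simp)) x).hasDerivAt
      have hc1 : Continuous (iteratedDeriv (M + 1) H) := (smooth_iter hH (M + 1)).continuous
      have hI1 : Integrable (F * iteratedDeriv (M + 1) H) :=
        (hF.continuous.mul hc1).integrable_of_hasCompactSupport hFs.mul_right
      have hI2 : Integrable (deriv F * iteratedDeriv M H) :=
        (hF'.continuous.mul hH'.continuous).integrable_of_hasCompactSupport hF's.mul_right
      have hI3 : Integrable (F * iteratedDeriv M H) :=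
        (hF.continuous.mul hH'.continuous).integrable_of_hasCompactSupport hFs.mul_right
      exact integral_mul_deriv_eq_deriv_mul_of_integrable (fun x _ => hdF x) (fun x _ => hd x)
        hI1 hI2 hI3
    rw [h1, ih (deriv F) H hF' hF's hH, iteratedDeriv_succ', pow_succ]
    ring

end Ibp

section Bd

/-- smooth functions vanishing outside `(-r, r)` -/
structure Bump (r : ℝ) (K : ℝ → ℝ) : Prop where
  sm : ContDiff ℝ ∞ K
  supp : ∀ t, r ≤ |t| → K t = 0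

variable {r : ℝ} {K : ℝ → ℝ}

theorem Bump.tsupport_sub (hK : Bump r K) : tsupport K ⊆ Icc (-r) r := by
  apply closure_minimal _ isClosed_Icc
  intro t ht
  by_contra h
  apply ht
  apply hK.supp
  rw [mem_Icc, not_and_or, not_le, not_le] at h
  rcases h with h | h
  · exact le_abs.2 (Or.inr (by linarith))
  · exact le_abs.2 (Or.inl h.le)

theorem Bump.hcs (hK : Bump r K) : HasCompactSupport K :=
  HasCompactSupport.of_support_subset_isCompact isCompact_Icc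
    ((subset_tsupport K).trans hK.tsupport_sub)

theorem Bump.iter_zero (hK : Bump r K) (i : ℕ) {t : ℝ} (ht : r < |t|) :
    iteratedDeriv i K t = 0 := by
  have h : K =ᶠ[nhds t] (fun _ => (0 : ℝ)) := by
    have ho : IsOpen {s : ℝ | r < |s|} := isOpen_lt continuous_const continuous_abs
    filter_upwards [ho.mem_nhds ht] with s hs
    exact hK.supp s (le_of_lt hs)
  rw [h.iteratedDeriv_eq i]
  rcases i with _ | i
  · simp
  · simp

theorem Bump.iter_bdd (hK : Bump r K) (M : ℕ) :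
    ∃ B : ℝ, 0 < B ∧ ∀ i ≤ M, ∀ t, |iteratedDeriv i K t| ≤ B := by
  have h1 : ∀ i : ℕ, ∃ B : ℝ, 0 ≤ B ∧ ∀ t, |iteratedDeriv i K t| ≤ B := by
    intro i
    have hc : Continuous (iteratedDeriv i K) := (smooth_iter hK.sm i).continuous
    have hs : HasCompactSupport (iteratedDeriv i K) := by
      apply HasCompactSupport.of_support_subset_isCompact (isCompact_Icc (a := -r) (b := r))
      intro t ht
      by_contra h
      apply ht
      apply hK.iter_zero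
      rw [mem_Icc, not_and_or, not_le, not_le] at h
      rcases h with h | h
      · exact lt_abs.2 (Or.inr (by linarith))
      · exact lt_abs.2 (Or.inl h)
    obtain ⟨B, hB⟩ := hc.bounded_above_of_compact_support hs
    exact ⟨B, (norm_nonneg _).trans (hB 0), fun t => by simpa using hB t⟩
  choose B hB0 hB using h1
  refine ⟨1 + ∑ i ∈ Finset.range (M + 1), B i, ?_, ?_⟩
  · have := Finset.sum_nonneg (s := Finset.range (M + 1)) (f := B) (fun i _ => hB0 i)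
    linarith
  · intro i hi t
    have h2 : B i ≤ ∑ i ∈ Finset.range (M + 1), B i :=
      Finset.single_le_sum (f := B) (fun i _ => hB0 i) (Finset.mem_range.2 (by omega))
    linarith [hB i t]

theorem iter_Ksc (hK : ContDiff ℝ ∞ K) (j i : ℕ) (t : ℝ) :
    iteratedDeriv i (Ksc K j) t = 2 ^ j * (2 ^ j) ^ i * iteratedDeriv i K (2 ^ j * t) := by
  have h1 : Ksc K j = fun t => (2 : ℝ) ^ j * (fun t => K (2 ^ j * t)) t := rfl
  rw [h1, iteratedDeriv_const_mul_field]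
  rw [iteratedDeriv_comp_const_mul (hK.of_le (by exact_mod_cast le_top))]
  ring

theorem iter_Ksc_sub (hK : ContDiff ℝ ∞ K) (j i : ℕ) (x ξ : ℝ) :
    iteratedDeriv i (fun ξ => Ksc K j (x - ξ)) ξ
      = (-1) ^ i * (2 ^ j * (2 ^ j) ^ i * iteratedDeriv i K (2 ^ j * (x - ξ))) := by
  rw [iteratedDeriv_comp_const_sub]
  simp only [smul_eq_mul]
  rw [iter_Ksc hK]

/-- the product of the two `x`-kernels -/
noncomputable def KK (K : ℝ → ℝ) (j j' : ℕ) (x x' ξ : ℝ) : ℝ := Ksc K j (x - ξ) * Ksc K j' (x' - ξ)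

theorem Ksc_smooth (hK : ContDiff ℝ ∞ K) (j : ℕ) : ContDiff ℝ ∞ (Ksc K j) :=
  contDiff_const.mul (hK.comp (contDiff_const.mul contDiff_id))

theorem KsS_smooth (hK : ContDiff ℝ ∞ K) (j : ℕ) (x : ℝ) :
    ContDiff ℝ ∞ (fun ξ => Ksc K j (x - ξ)) :=
  (Ksc_smooth hK j).comp (contDiff_const.sub contDiff_id)

theorem KK_smooth (hK : ContDiff ℝ ∞ K) (j j' : ℕ) (x x' : ℝ) :
    ContDiff ℝ ∞ (KK K j j' x x') := (KsS_smooth hK j x).mul (KsS_smooth hK j' x')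

theorem Ksc_zero (hK : Bump r K) {j : ℕ} {t : ℝ} (ht : r * (2 ^ j)⁻¹ ≤ |t|) : Ksc K j t = 0 := by
  have h2 : (0 : ℝ) < 2 ^ j := by positivity
  unfold Ksc
  rw [hK.supp, mul_zero]
  rw [abs_mul, abs_of_pos h2]
  calc r = 2 ^ j * (r * (2 ^ j)⁻¹) := by field_simp
    _ ≤ 2 ^ j * |t| := by gcongr

theorem KK_zero (hK : Bump r K) {j j' : ℕ} {x x' ξ : ℝ} (h : r * (2 ^ j)⁻¹ ≤ |x - ξ|) :
    KK K j j' x x' ξ = 0 := by
  unfold KK
  rw [Ksc_zero hK h, zero_mul]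

theorem KK_hcs (hK : Bump r K) (j j' : ℕ) (x x' : ℝ) : HasCompactSupport (KK K j j' x x') := by
  apply HasCompactSupport.of_support_subset_isCompact
    (isCompact_Icc (a := x - r * (2 ^ j)⁻¹) (b := x + r * (2 ^ j)⁻¹))
  intro ξ hξ
  by_contra h
  apply hξ
  apply KK_zero hK
  rw [mem_Icc, not_and_or, not_le, not_le] at h
  rcases h with h | h
  · exact le_abs.2 (Or.inl (by linarith))
  · exact le_abs.2 (Or.inr (by linarith))

theorem KK_iter_zero (hK : Bump r K) (j j' M : ℕ) {x x' ξ : ℝ} (h : r * (2 ^ j)⁻¹ < |x - ξ|) :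
    iteratedDeriv M (KK K j j' x x') ξ = 0 := by
  have h1 : KK K j j' x x' =ᶠ[nhds ξ] (fun _ => (0 : ℝ)) := by
    have ho : IsOpen {s : ℝ | r * (2 ^ j)⁻¹ < |x - s|} :=
      isOpen_lt continuous_const (continuous_abs.comp (continuous_const.sub continuous_id))
    filter_upwards [ho.mem_nhds h] with s hs
    exact KK_zero hK (le_of_lt hs)
  rw [h1.iteratedDeriv_eq M]
  rcases M with _ | M
  · simp
  · simp

theorem KK_iter_bdd (hK : ContDiff ℝ ∞ K) {M : ℕ} {B : ℝ} (_ : 0 < B)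
    (hB : ∀ i ≤ M, ∀ t, |iteratedDeriv i K t| ≤ B) {j j' : ℕ} (hj : j' ≤ j) (x x' ξ : ℝ) :
    |iteratedDeriv M (KK K j j' x x') ξ| ≤ 2 ^ M * B ^ 2 * (2 ^ j * 2 ^ j') * (2 ^ j) ^ M := by
  have e : iteratedDeriv M (KK K j j' x x') ξ = ∑ i ∈ Finset.range (M + 1),
      (M.choose i : ℝ) * iteratedDeriv i (fun ξ => Ksc K j (x - ξ)) ξ *
        iteratedDeriv (M - i) (fun ξ => Ksc K j' (x' - ξ)) ξ := by
    have h1 : KK K j j' x x' = (fun ξ => Ksc K j (x - ξ)) * (fun ξ => Ksc K j' (x' - ξ)) := rfl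
    rw [h1, iteratedDeriv_mul]
    · exact ((KsS_smooth hK j x).of_le (by exact_mod_cast le_top)).contDiffAt
    · exact ((KsS_smooth hK j' x').of_le (by exact_mod_cast le_top)).contDiffAt
  rw [e]
  have hjj : (2 : ℝ) ^ j' ≤ 2 ^ j := pow_le_pow_right₀ (by norm_num) hj
  have hj0 : (0 : ℝ) < 2 ^ j := by positivity
  have hj0' : (0 : ℝ) < 2 ^ j' := by positivity
  calc |∑ i ∈ Finset.range (M + 1),
      (M.choose i : ℝ) * iteratedDeriv i (fun ξ => Ksc K j (x - ξ)) ξ *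
        iteratedDeriv (M - i) (fun ξ => Ksc K j' (x' - ξ)) ξ|
      ≤ ∑ i ∈ Finset.range (M + 1), |(M.choose i : ℝ) *
        iteratedDeriv i (fun ξ => Ksc K j (x - ξ)) ξ *
        iteratedDeriv (M - i) (fun ξ => Ksc K j' (x' - ξ)) ξ| := Finset.abs_sum_le_sum_abs _ _
    _ ≤ ∑ i ∈ Finset.range (M + 1), (M.choose i : ℝ) *
        (B ^ 2 * (2 ^ j * 2 ^ j') * (2 ^ j) ^ M) := by
        refine Finset.sum_le_sum fun i hi => ?_
        have hiM : i ≤ M := by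
          have := Finset.mem_range.1 hi
          omega
        rw [iter_Ksc_sub hK, iter_Ksc_sub hK, abs_mul, abs_mul, abs_mul, abs_mul, abs_mul, abs_mul,
          abs_mul, abs_mul]
        simp only [abs_pow, abs_neg, abs_one, one_pow, one_mul, Nat.abs_cast, Nat.abs_ofNat]
        have h1 := hB i hiM (2 ^ j * (x - ξ))
        have h2 := hB (M - i) (by omega) (2 ^ j' * (x' - ξ))
        have h3 : ((2 : ℝ) ^ j') ^ (M - i) ≤ (2 ^ j) ^ (M - i) := by gcongr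
        have h4 : ((2 : ℝ) ^ j) ^ i * (2 ^ j) ^ (M - i) = (2 ^ j) ^ M := by
          rw [← pow_add]; congr 1; omega
        calc (M.choose i : ℝ) * (2 ^ j * (2 ^ j) ^ i * |iteratedDeriv i K (2 ^ j * (x - ξ))|) *
              (2 ^ j' * (2 ^ j') ^ (M - i) * |iteratedDeriv (M - i) K (2 ^ j' * (x' - ξ))|)
            ≤ (M.choose i : ℝ) * (2 ^ j * (2 ^ j) ^ i * B) *
              (2 ^ j' * (2 ^ j) ^ (M - i) * B) := by gcongr
          _ = (M.choose i : ℝ) * (B ^ 2 * (2 ^ j * 2 ^ j') * ((2 ^ j) ^ i * (2 ^ j) ^ (M - i))) := by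
              ring
          _ = _ := by rw [h4]
    _ = 2 ^ M * B ^ 2 * (2 ^ j * 2 ^ j') * (2 ^ j) ^ M := by
        rw [← Finset.sum_mul]
        have : ∑ i ∈ Finset.range (M + 1), (M.choose i : ℝ) = 2 ^ M := by
          exact_mod_cast Nat.sum_range_choose M
        rw [this]
        ring

end Bd

section Main

theorem int_bd {f : ℝ → ℝ} {a b D : ℝ} (hab : a ≤ b) (h : ∀ ξ, |f ξ| ≤ D)
    (h0 : ∀ ξ, ξ ∉ Icc a b → f ξ = 0) : |∫ ξ, f ξ| ≤ D * (b - a) := by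
  rw [← setIntegral_eq_integral_of_forall_compl_eq_zero (s := Icc a b) h0]
  have h1 := norm_setIntegral_le_of_norm_le_const (μ := volume) (s := Icc a b) (f := f) (C := D)
    measure_Icc_lt_top (fun x _ => by simpa using h x)
  have h2 : volume.real (Icc a b) = b - a := by
    simp [Measure.real, hab]
  rw [h2] at h1
  simpa using h1

/-- the inner `x`-integral -/
noncomputable def inn (K χ : ℝ → ℝ) (M j j' : ℕ) (x x' Δ c : ℝ) : ℝ :=
  ∫ ξ, KK K j j' x x' ξ * iteratedDeriv M χ (c + Δ * ξ)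

theorem inn_ibp {r : ℝ} {K χ : ℝ → ℝ} (hK : Bump r K) (hχ : ContDiff ℝ ∞ χ) (M j j' : ℕ)
    (x x' Δ c : ℝ) : Δ ^ M * inn K χ M j j' x x' Δ c
      = (-1) ^ M * ∫ ξ, iteratedDeriv M (KK K j j' x x') ξ * χ (c + Δ * ξ) := by
  have hg : ContDiff ℝ ∞ (fun s => χ (c + s)) := hχ.comp (contDiff_const.add contDiff_id)
  have hH : ContDiff ℝ ∞ (fun ξ => χ (c + Δ * ξ)) :=
    hχ.comp (contDiff_const.add (contDiff_const.mul contDiff_id))
  have e1 : iteratedDeriv M (fun ξ => χ (c + Δ * ξ))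
      = fun ξ => Δ ^ M * iteratedDeriv M χ (c + Δ * ξ) := by
    have h2 := iteratedDeriv_comp_const_mul (n := M) (f := fun s => χ (c + s))
      (hg.of_le (by exact_mod_cast le_top)) Δ
    rw [iteratedDeriv_comp_const_add] at h2
    exact h2
  have h3 := ibp M (KK K j j' x x') (fun ξ => χ (c + Δ * ξ)) (KK_smooth hK.sm j j' x x')
    (KK_hcs hK j j' x x') hH
  rw [← h3, e1]
  unfold inn
  rw [← integral_const_mul]
  congr 1
  ext ξ
  ring

theorem not_Icc {a ρ ξ : ℝ} (h : ξ ∉ Icc (a - ρ) (a + ρ)) : ρ < |a - ξ| := by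
  rw [mem_Icc, not_and_or, not_le, not_le] at h
  rcases h with h | h
  · exact lt_abs.2 (Or.inl (by linarith))
  · exact lt_abs.2 (Or.inr (by linarith))

theorem inn_bound {r : ℝ} (hr : 0 < r) {K χ : ℝ → ℝ} {r' : ℝ} (hK : Bump r K) (hχ : Bump r' χ)
    (M : ℕ) : ∃ C : ℝ, 0 < C ∧ ∀ (j j' : ℕ), j' ≤ j → ∀ (x x' Δ c : ℝ),
      |inn K χ M j j' x x' Δ c| * (1 + |Δ| * (2 ^ j)⁻¹) ^ M ≤ C * 2 ^ j' := by
  obtain ⟨B, hB0, hB⟩ := hK.iter_bdd M
  obtain ⟨B', hB0', hB'⟩ := hχ.iter_bdd M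
  have hχb : ∀ t, |χ t| ≤ B' := fun t => by simpa using hB' 0 (Nat.zero_le _) t
  refine ⟨2 ^ M * (B ^ 2 * B' * (2 * r) + 2 ^ M * B ^ 2 * B' * (2 * r)), by positivity, ?_⟩
  intro j j' hj x x' Δ c
  have hj0 : (0 : ℝ) < 2 ^ j := by positivity
  have hj0' : (0 : ℝ) < 2 ^ j' := by positivity
  have hρ : 0 < r * (2 ^ j)⁻¹ := by positivity
  have h1 : |inn K χ M j j' x x' Δ c| ≤ B ^ 2 * B' * (2 * r) * 2 ^ j' := by
    have h := int_bd (f := fun ξ => KK K j j' x x' ξ * iteratedDeriv M χ (c + Δ * ξ))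
      (a := x - r * (2 ^ j)⁻¹) (b := x + r * (2 ^ j)⁻¹)
      (D := B ^ 2 * (2 ^ j * 2 ^ j') * B') (by linarith) ?_ ?_
    · refine h.trans (le_of_eq ?_)
      field_simp
      ring
    · intro ξ
      rw [abs_mul]
      have h3 := KK_iter_bdd (M := 0) hK.sm hB0 (fun i hi t => hB i (by omega) t) hj x x' ξ
      simp only [iteratedDeriv_zero, pow_zero, one_mul, mul_one] at h3
      have h4 := hB' M le_rfl (c + Δ * ξ)
      gcongr
    · intro ξ hξ
      have := not_Icc hξ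
      simp only [KK_zero hK this.le, zero_mul]
  have h2 : |inn K χ M j j' x x' Δ c| * |Δ| ^ M
      ≤ 2 ^ M * B ^ 2 * B' * (2 * r) * 2 ^ j' * (2 ^ j) ^ M := by
    have e : |inn K χ M j j' x x' Δ c| * |Δ| ^ M
        = |∫ ξ, iteratedDeriv M (KK K j j' x x') ξ * χ (c + Δ * ξ)| := by
      have h := congrArg abs (inn_ibp hK hχ.sm M j j' x x' Δ c)
      rw [abs_mul, abs_mul, abs_pow, abs_pow] at h
      simp only [abs_neg, abs_one, one_pow, one_mul] at h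
      rw [mul_comm]
      exact h
    rw [e]
    have h := int_bd (f := fun ξ => iteratedDeriv M (KK K j j' x x') ξ * χ (c + Δ * ξ))
      (a := x - r * (2 ^ j)⁻¹) (b := x + r * (2 ^ j)⁻¹)
      (D := 2 ^ M * B ^ 2 * (2 ^ j * 2 ^ j') * (2 ^ j) ^ M * B') (by linarith) ?_ ?_
    · refine h.trans (le_of_eq ?_)
      field_simp
      ring
    · intro ξ
      rw [abs_mul]
      have h3 := KK_iter_bdd (M := M) hK.sm hB0 hB hj x x' ξ
      have h4 := hχb (c + Δ * ξ)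
      gcongr
    · intro ξ hξ
      have := not_Icc hξ
      simp only [KK_iter_zero hK j j' M this, zero_mul]
  have h3 : (1 + |Δ| * (2 ^ j)⁻¹) ^ M ≤ 2 ^ M * (1 + |Δ| ^ M * ((2 ^ j) ^ M)⁻¹) := by
    have h4 := add_pow_le (a := 1) (b := |Δ| * (2 ^ j)⁻¹) zero_le_one (by positivity) M
    refine h4.trans ?_
    rw [one_pow, mul_pow, inv_pow]
    gcongr
    · norm_num
    · omega
  calc |inn K χ M j j' x x' Δ c| * (1 + |Δ| * (2 ^ j)⁻¹) ^ M
      ≤ |inn K χ M j j' x x' Δ c| * (2 ^ M * (1 + |Δ| ^ M * ((2 ^ j) ^ M)⁻¹)) := by gcongr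
    _ = 2 ^ M * (|inn K χ M j j' x x' Δ c| +
        |inn K χ M j j' x x' Δ c| * |Δ| ^ M * ((2 ^ j) ^ M)⁻¹) := by ring
    _ ≤ 2 ^ M * (B ^ 2 * B' * (2 * r) * 2 ^ j' +
        2 ^ M * B ^ 2 * B' * (2 * r) * 2 ^ j' * (2 ^ j) ^ M * ((2 ^ j) ^ M)⁻¹) := by gcongr
    _ = 2 ^ M * (B ^ 2 * B' * (2 * r) + 2 ^ M * B ^ 2 * B' * (2 * r)) * 2 ^ j' := by
        field_simp

theorem continuous_ker {K ψ : ℝ → ℝ} (hK : Continuous K) (hψ : Continuous ψ) (j : ℕ)
    (z : ℝ × ℝ) (u : ℝ) : Continuous (ker K ψ j z u) := by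
  unfold ker Ksc
  fun_prop

/-- support of the kernel -/
theorem ker_supp {r r' : ℝ} {K ψ : ℝ → ℝ} (hK : ∀ t, r ≤ |t| → K t = 0)
    (hψ : ∀ t, r' ≤ |t| → ψ t = 0) {j : ℕ} {z ζ : ℝ × ℝ} {u : ℝ} (h : ker K ψ j z u ζ ≠ 0) :
    |z.1 - ζ.1| < r * (2 ^ j)⁻¹ ∧ |z.2 - ζ.2 - (z.1 - ζ.1) * u| < r' := by
  constructor
  · by_contra h1
    apply h
    unfold ker Ksc
    have h2 : (0 : ℝ) < 2 ^ j := by positivity
    rw [hK, mul_zero, zero_mul]
    rw [abs_mul, abs_of_pos h2]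
    calc r = 2 ^ j * (r * (2 ^ j)⁻¹) := by field_simp
      _ ≤ 2 ^ j * |z.1 - ζ.1| := by
        gcongr
        exact not_lt.1 h1
  · by_contra h1
    apply h
    unfold ker
    rw [hψ _ (not_lt.1 h1), mul_zero]

theorem two_inv_le_one (j : ℕ) : ((2 : ℝ) ^ j)⁻¹ ≤ 1 :=
  inv_le_one_of_one_le₀ (one_le_pow₀ (by norm_num))

theorem ker_hcs {r r' : ℝ} (hr : 0 < r) {K ψ : ℝ → ℝ} (hK : ∀ t, r ≤ |t| → K t = 0)
    (hψ : ∀ t, r' ≤ |t| → ψ t = 0) (j : ℕ) (z : ℝ × ℝ) (u : ℝ) :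
    HasCompactSupport (ker K ψ j z u) := by
  apply HasCompactSupport.of_support_subset_isCompact
    ((isCompact_Icc (a := z.1 - r) (b := z.1 + r)).prod
      (isCompact_Icc (a := z.2 - r' - r * |u|) (b := z.2 + r' + r * |u|)))
  intro ζ hζ
  obtain ⟨h1, h2⟩ := ker_supp hK hψ hζ
  have h3 : |z.1 - ζ.1| < r := by
    refine h1.trans_le ?_
    have := two_inv_le_one j
    nlinarith
  have h4 : |(z.1 - ζ.1) * u| ≤ r * |u| := by
    rw [abs_mul]
    gcongr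
  rw [abs_lt] at h2 h3
  rw [abs_le] at h4
  constructor
  · constructor <;> linarith [h3.1, h3.2]
  · constructor <;> linarith [h2.1, h2.2, h4.1, h4.2]

theorem ker_integrable {r r' : ℝ} (hr : 0 < r) {K ψ : ℝ → ℝ} (hKc : Continuous K)
    (hψc : Continuous ψ) (hK : ∀ t, r ≤ |t| → K t = 0)
    (hψ : ∀ t, r' ≤ |t| → ψ t = 0) (j : ℕ) (z : ℝ × ℝ) (u : ℝ) :
    Integrable (ker K ψ j z u) :=
  (continuous_ker hKc hψc j z u).integrable_of_hasCompactSupport (ker_hcs hr hK hψ j z u)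

/-- the formula for `kap`: an average of inner integrals -/
theorem kap_eq {r r' : ℝ} (hr : 0 < r) {K χ : ℝ → ℝ} (hK : Bump r K) (hχ : Bump r' χ) (M : ℕ)
    (j j' : ℕ) (z : ℝ × ℝ) (u : ℝ) (z' : ℝ × ℝ) (u' : ℝ) :
    kap K (iteratedDeriv M χ) j j' z u z' u' =
      ∫ s, iteratedDeriv M χ s *
        inn K χ M j j' z.1 z'.1 (u - u') (z.2 - z'.2 - z.1 * u + z'.1 * u' + s) := by
  set ψ := iteratedDeriv M χ with hψdef
  have hψc : Continuous ψ := (smooth_iter hχ.sm M).continuous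
  have hKc : Continuous K := hK.sm.continuous
  -- Fubini
  have hI : Integrable (fun ζ : ℝ × ℝ => ker K ψ j z u ζ * ker K ψ j' z' u' ζ) := by
    apply ((continuous_ker hKc hψc j z u).mul
      (continuous_ker hKc hψc j' z' u')).integrable_of_hasCompactSupport
    refine HasCompactSupport.mul_right ?_
    refine ker_hcs (r' := r' + 1) hr hK.supp (fun t ht => ?_) j z u
    exact hχ.iter_zero M (by linarith)
  have e1 : kap K ψ j j' z u z' u' = ∫ ξ, ∫ υ, ker K ψ j z u (ξ, υ) * ker K ψ j' z' u' (ξ, υ) := by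
    unfold kap
    rw [Measure.volume_eq_prod] at hI ⊢
    rw [integral_prod _ hI]
  -- substitution
  set G : ℝ → ℝ → ℝ := fun ξ s => KK K j j' z.1 z'.1 ξ *
    ψ (z.2 - z'.2 - z.1 * u + z'.1 * u' + s + (u - u') * ξ) * ψ s with hG
  have e2 : ∀ ξ, ∫ υ, ker K ψ j z u (ξ, υ) * ker K ψ j' z' u' (ξ, υ) = ∫ s, G ξ s := by
    intro ξ
    rw [← integral_sub_left_eq_self (G ξ) volume (z'.2 - (z'.1 - ξ) * u')]
    congr 1
    ext υ
    simp only [hG, ker, KK]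
    have a1 : z.2 - υ - (z.1 - ξ) * u = z.2 - z'.2 - z.1 * u + z'.1 * u' +
      (z'.2 - (z'.1 - ξ) * u' - υ) + (u - u') * ξ := by ring
    have a2 : z'.2 - υ - (z'.1 - ξ) * u' = z'.2 - (z'.1 - ξ) * u' - υ := by ring
    rw [a1, a2]
    ring
  have e3 : kap K ψ j j' z u z' u' = ∫ ξ, ∫ s, G ξ s := by
    rw [e1]
    congr 1
    ext ξ
    exact e2 ξ
  have hGc : Continuous (Function.uncurry G) := by
    simp only [hG, Function.uncurry_def, KK, Ksc]
    fun_prop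
  have hGs : HasCompactSupport (Function.uncurry G) := by
    apply HasCompactSupport.of_support_subset_isCompact
      ((isCompact_Icc (a := z.1 - r) (b := z.1 + r)).prod
        (isCompact_Icc (a := -(r' + 1)) (b := r' + 1)))
    rintro ⟨ξ, s⟩ hξ
    by_contra hn
    apply hξ
    simp only [hG, Function.uncurry_apply_pair]
    by_cases h1 : ξ ∈ Icc (z.1 - r) (z.1 + r)
    · have h2 : s ∉ Icc (-(r' + 1)) (r' + 1) := fun h2 => hn ⟨h1, h2⟩
      have h3 : r' < |s| := by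
        have h4 := not_Icc (a := 0) (ρ := r' + 1) (ξ := s) (by simpa using h2)
        rw [zero_sub, abs_neg] at h4
        linarith
      rw [hψdef, hχ.iter_zero M h3, mul_zero]
    · have h3 := not_Icc h1
      rw [KK_zero hK, zero_mul, zero_mul]
      have := two_inv_le_one j
      nlinarith
  rw [e3, integral_integral_swap (hGc.integrable_of_hasCompactSupport hGs)]
  congr 1
  ext s
  unfold inn
  rw [← integral_const_mul]
  congr 1
  ext ξ
  simp only [hG]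
  ring

/-- **T1, size.** -/
theorem kap_bound {r r' : ℝ} (hr : 0 < r) (hr' : 0 < r') {K χ : ℝ → ℝ} (hK : Bump r K)
    (hχ : Bump r' χ) (M : ℕ) : ∃ C : ℝ, 0 < C ∧ ∀ (j j' : ℕ), j' ≤ j →
      ∀ (z : ℝ × ℝ) (u : ℝ) (z' : ℝ × ℝ) (u' : ℝ),
      |kap K (iteratedDeriv M χ) j j' z u z' u'| * (1 + |u - u'| * (2 ^ j)⁻¹) ^ M
        ≤ C * 2 ^ j' := by
  obtain ⟨C, hC0, hC⟩ := inn_bound hr hK hχ M
  obtain ⟨B', hB0', hB'⟩ := hχ.iter_bdd M
  refine ⟨2 * r' * B' * C, by positivity, ?_⟩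
  intro j j' hj z u z' u'
  rw [kap_eq hr hK hχ]
  set D := (1 + |u - u'| * ((2 : ℝ) ^ j)⁻¹) ^ M with hD
  have hD0 : 0 < D := by positivity
  have h := int_bd (f := fun s => iteratedDeriv M χ s *
        inn K χ M j j' z.1 z'.1 (u - u') (z.2 - z'.2 - z.1 * u + z'.1 * u' + s))
      (a := 0 - r') (b := 0 + r') (D := B' * (C * 2 ^ j' / D)) (by linarith) ?_ ?_
  · calc |∫ s, iteratedDeriv M χ s *
        inn K χ M j j' z.1 z'.1 (u - u') (z.2 - z'.2 - z.1 * u + z'.1 * u' + s)| * D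
        ≤ (B' * (C * 2 ^ j' / D) * (0 + r' - (0 - r'))) * D := by gcongr
      _ = 2 * r' * B' * C * 2 ^ j' := by
        field_simp
        ring
  · intro s
    rw [abs_mul]
    have h1 := hB' M le_rfl s
    have h2 := hC j j' hj z.1 z'.1 (u - u') (z.2 - z'.2 - z.1 * u + z'.1 * u' + s)
    rw [← hD, ← le_div_iff₀ hD0] at h2
    gcongr
  · intro s hs
    have h3 := not_Icc hs
    rw [zero_sub, abs_neg] at h3
    rw [hχ.iter_zero M h3, zero_mul]

/-- **T1, support.** -/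
theorem kap_supp {r r' : ℝ} {K ψ : ℝ → ℝ} (hK : ∀ t, r ≤ |t| → K t = 0)
    (hψ : ∀ t, r' ≤ |t| → ψ t = 0) {j j' : ℕ} {z : ℝ × ℝ} {u : ℝ} {z' : ℝ × ℝ}
    {u' : ℝ} (h : kap K ψ j j' z u z' u' ≠ 0) :
    |z.1 - z'.1| ≤ r * (2 ^ j)⁻¹ + r * (2 ^ j')⁻¹ ∧
      |z.2 - z'.2 - (z.1 - z'.1) * u'| ≤ 2 * r' + |u - u'| * (r * (2 ^ j)⁻¹) := by
  have h1 : ∃ ζ, ker K ψ j z u ζ * ker K ψ j' z' u' ζ ≠ 0 := by
    by_contra hn
    push Not at hn
    apply h
    unfold kap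
    simp [hn]
  obtain ⟨ζ, hζ⟩ := h1
  obtain ⟨a1, a2⟩ := ker_supp hK hψ (left_ne_zero_of_mul hζ)
  obtain ⟨b1, b2⟩ := ker_supp hK hψ (right_ne_zero_of_mul hζ)
  constructor
  · have e : z.1 - z'.1 = (z.1 - ζ.1) - (z'.1 - ζ.1) := by ring
    rw [e]
    exact (abs_sub _ _).trans (by linarith)
  · have e : z.2 - z'.2 - (z.1 - z'.1) * u' = ((z.2 - ζ.2 - (z.1 - ζ.1) * u) -
      (z'.2 - ζ.2 - (z'.1 - ζ.1) * u')) + (u - u') * (z.1 - ζ.1) := by ring
    rw [e]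
    refine (abs_add_le _ _).trans ?_
    have h2 := abs_sub (z.2 - ζ.2 - (z.1 - ζ.1) * u) (z'.2 - ζ.2 - (z'.1 - ζ.1) * u')
    have h3 : |(u - u') * (z.1 - ζ.1)| ≤ |u - u'| * (r * (2 ^ j)⁻¹) := by
      rw [abs_mul]
      gcongr
    linarith

end Main

section Fub

/-- `S_j g (ζ) = ∫ k_j (z;ζ) g z dz`, the adjoint of `T_j` -/
noncomputable def Sop (K ψ : ℝ → ℝ) (j : ℕ) (u : ℝ × ℝ → ℝ) (g : ℝ × ℝ → ℝ) (ζ : ℝ × ℝ) : ℝ :=
  ∫ z : ℝ × ℝ, ker K ψ j z (u z) ζ * g z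

variable {r r' : ℝ} {K ψ : ℝ → ℝ}

theorem integral_abs_ker (hr : 0 < r) (hKc : Continuous K)
    (hψc : Continuous ψ) (hK : ∀ t, r ≤ |t| → K t = 0)
    (hψ : ∀ t, r' ≤ |t| → ψ t = 0) (j : ℕ) (z : ℝ × ℝ) (u : ℝ) :
    ∫ ζ : ℝ × ℝ, |ker K ψ j z u ζ| = (∫ t, |Ksc K j t|) * ∫ t, |ψ t| := by
  have hI := (ker_integrable hr hKc hψc hK hψ j z u).abs
  rw [Measure.volume_eq_prod] at hI ⊢
  rw [integral_prod _ hI]
  have e : ∀ ξ, ∫ υ, |ker K ψ j z u (ξ, υ)| = |Ksc K j (z.1 - ξ)| * ∫ t, |ψ t| := by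
    intro ξ
    rw [← integral_sub_left_eq_self (fun t => |ψ t|) volume (z.2 - (z.1 - ξ) * u),
      ← integral_const_mul]
    congr 1
    ext υ
    simp only [ker]
    rw [abs_mul]
    congr 3
    ring
  simp only [e]
  rw [integral_mul_const, integral_sub_left_eq_self (fun t => |Ksc K j t|) volume z.1]

theorem ker_bdd (hKc : Continuous K) (hψc : Continuous ψ) (hK : ∀ t, r ≤ |t| → K t = 0)
    (hψ : ∀ t, r' ≤ |t| → ψ t = 0) (j : ℕ) :
    ∃ B : ℝ, 0 ≤ B ∧ ∀ (z : ℝ × ℝ) (u : ℝ) (ζ : ℝ × ℝ), |ker K ψ j z u ζ| ≤ B := by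
  have hcs : ∀ {ρ : ℝ} {F : ℝ → ℝ}, (∀ t, ρ ≤ |t| → F t = 0) → HasCompactSupport F := by
    intro ρ F hF
    apply HasCompactSupport.of_support_subset_isCompact (isCompact_Icc (a := -ρ) (b := ρ))
    intro t ht
    by_contra h
    apply ht
    apply hF
    rw [mem_Icc, not_and_or, not_le, not_le] at h
    rcases h with h | h
    · exact le_abs.2 (Or.inr (by linarith))
    · exact le_abs.2 (Or.inl h.le)
  obtain ⟨B1, hB1⟩ := hKc.bounded_above_of_compact_support (hcs hK)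
  obtain ⟨B2, hB2⟩ := hψc.bounded_above_of_compact_support (hcs hψ)
  have h1 : 0 ≤ B1 := (norm_nonneg _).trans (hB1 0)
  have h2 : 0 ≤ B2 := (norm_nonneg _).trans (hB2 0)
  refine ⟨2 ^ j * B1 * B2, by positivity, ?_⟩
  intro z u ζ
  unfold ker Ksc
  rw [abs_mul, abs_mul]
  have h3 : |K (2 ^ j * (z.1 - ζ.1))| ≤ B1 := by simpa using hB1 (2 ^ j * (z.1 - ζ.1))
  have h4 : |ψ (z.2 - ζ.2 - (z.1 - ζ.1) * u)| ≤ B2 := by
    simpa using hB2 (z.2 - ζ.2 - (z.1 - ζ.1) * u)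
  have h5 : |(2 : ℝ) ^ j| = 2 ^ j := abs_of_pos (by positivity)
  rw [h5]
  gcongr

theorem measurable_ker (hKc : Continuous K) (hψc : Continuous ψ) (j : ℕ) {α : Type*}
    [MeasurableSpace α] {f h : α → ℝ × ℝ} {v : α → ℝ} (hf : Measurable f) (hv : Measurable v)
    (hh : Measurable h) : Measurable fun a => ker K ψ j (f a) (v a) (h a) := by
  unfold ker Ksc
  have := hKc.measurable
  have := hψc.measurable
  fun_prop

/-- the triple kernel is integrable -/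
theorem integrable_tri (hr : 0 < r) (hKc : Continuous K)
    (hψc : Continuous ψ) (hK : ∀ t, r ≤ |t| → K t = 0)
    (hψ : ∀ t, r' ≤ |t| → ψ t = 0) (j j' : ℕ) {u u' g g' : ℝ × ℝ → ℝ} (hu : Measurable u)
    (hu' : Measurable u') (hg : Integrable g) (hg' : Integrable g') :
    Integrable (fun q : ((ℝ × ℝ) × (ℝ × ℝ)) × (ℝ × ℝ) =>
      (ker K ψ j q.1.1 (u q.1.1) q.2 * g q.1.1) * (ker K ψ j' q.1.2 (u' q.1.2) q.2 * g' q.1.2))
      ((volume.prod volume).prod volume) := by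
  obtain ⟨B, hB0, hB⟩ := ker_bdd hKc hψc hK hψ j'
  have hgp : Integrable (fun p : (ℝ × ℝ) × (ℝ × ℝ) => g p.1 * g' p.2) (volume.prod volume) :=
    hg.mul_prod hg'
  have hm1 : Measurable fun q : ((ℝ × ℝ) × (ℝ × ℝ)) × (ℝ × ℝ) =>
      ker K ψ j q.1.1 (u q.1.1) q.2 * ker K ψ j' q.1.2 (u' q.1.2) q.2 :=
    (measurable_ker hKc hψc j (by fun_prop) (by fun_prop) (by fun_prop)).mul
      (measurable_ker hKc hψc j' (by fun_prop) (by fun_prop) (by fun_prop))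
  have e : (fun q : ((ℝ × ℝ) × (ℝ × ℝ)) × (ℝ × ℝ) =>
      (ker K ψ j q.1.1 (u q.1.1) q.2 * g q.1.1) * (ker K ψ j' q.1.2 (u' q.1.2) q.2 * g' q.1.2))
      = fun q => (ker K ψ j q.1.1 (u q.1.1) q.2 * ker K ψ j' q.1.2 (u' q.1.2) q.2) *
        (g q.1.1 * g' q.1.2) := by
    ext q
    ring
  rw [e]
  have hm : AEStronglyMeasurable (fun q : ((ℝ × ℝ) × (ℝ × ℝ)) × (ℝ × ℝ) =>
      (ker K ψ j q.1.1 (u q.1.1) q.2 * ker K ψ j' q.1.2 (u' q.1.2) q.2) *
        (g q.1.1 * g' q.1.2)) ((volume.prod volume).prod volume) :=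
    hm1.aestronglyMeasurable.mul (hgp.aestronglyMeasurable.comp_fst)
  have hb : ∀ p : (ℝ × ℝ) × (ℝ × ℝ), Integrable (fun ζ : ℝ × ℝ =>
      ker K ψ j p.1 (u p.1) ζ * ker K ψ j' p.2 (u' p.2) ζ) := by
    intro p
    apply ((continuous_ker hKc hψc j _ _).mul
      (continuous_ker hKc hψc j' _ _)).integrable_of_hasCompactSupport
    exact HasCompactSupport.mul_right (ker_hcs hr hK hψ j _ _)
  rw [integrable_prod_iff hm]
  refine ⟨Filter.Eventually.of_forall fun p => (hb p).mul_const (g p.1 * g' p.2), ?_⟩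
  have hbd : ∀ p : (ℝ × ℝ) × (ℝ × ℝ), ∫ ζ : ℝ × ℝ,
      ‖(ker K ψ j p.1 (u p.1) ζ * ker K ψ j' p.2 (u' p.2) ζ) * (g p.1 * g' p.2)‖
      ≤ (((∫ t, |Ksc K j t|) * ∫ t, |ψ t|) * B) * ‖g p.1 * g' p.2‖ := by
    intro p
    simp only [norm_mul]
    rw [integral_mul_const]
    gcongr
    rw [← integral_abs_ker hr hKc hψc hK hψ j p.1 (u p.1), ← integral_mul_const]
    apply integral_mono
    · simpa only [norm_mul] using (hb p).norm
    · exact ((ker_integrable hr hKc hψc hK hψ j p.1 (u p.1)).abs).mul_const B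
    · intro ζ
      simp only [Real.norm_eq_abs]
      gcongr
      exact hB _ _ _
  refine Integrable.mono' ((hgp.norm).const_mul (((∫ t, |Ksc K j t|) * ∫ t, |ψ t|) * B)) ?_ ?_
  · exact hm.norm.integral_prod_right'
  · refine Filter.Eventually.of_forall fun p => ?_
    rw [Real.norm_of_nonneg (integral_nonneg fun _ => norm_nonneg _)]
    exact hbd p

/-- **T1, Fubini identity.** -/
theorem sop_inner (hr : 0 < r) (hKc : Continuous K)
    (hψc : Continuous ψ) (hK : ∀ t, r ≤ |t| → K t = 0)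
    (hψ : ∀ t, r' ≤ |t| → ψ t = 0) (j j' : ℕ) {u u' g g' : ℝ × ℝ → ℝ} (hu : Measurable u)
    (hu' : Measurable u') (hg : Integrable g) (hg' : Integrable g') :
    ∫ ζ : ℝ × ℝ, Sop K ψ j u g ζ * Sop K ψ j' u' g' ζ
      = ∫ p : (ℝ × ℝ) × (ℝ × ℝ), g p.1 * g' p.2 *
          kap K ψ j j' p.1 (u p.1) p.2 (u' p.2) := by
  have hI := integrable_tri hr hKc hψc hK hψ j j' hu hu' hg hg'
  have e1 : ∀ ζ : ℝ × ℝ, Sop K ψ j u g ζ * Sop K ψ j' u' g' ζ
      = ∫ p : (ℝ × ℝ) × (ℝ × ℝ), (ker K ψ j p.1 (u p.1) ζ * g p.1) *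
        (ker K ψ j' p.2 (u' p.2) ζ * g' p.2) := by
    intro ζ
    unfold Sop
    rw [Measure.volume_eq_prod (ℝ × ℝ) (ℝ × ℝ), integral_prod_mul (μ := (volume : Measure (ℝ × ℝ)))
      (ν := (volume : Measure (ℝ × ℝ))) (fun z => ker K ψ j z (u z) ζ * g z)
      (fun z => ker K ψ j' z (u' z) ζ * g' z)]
  simp only [e1]
  rw [Measure.volume_eq_prod (ℝ × ℝ) (ℝ × ℝ), ← integral_integral_swap
    (f := fun (p : (ℝ × ℝ) × (ℝ × ℝ)) (ζ : ℝ × ℝ) => (ker K ψ j p.1 (u p.1) ζ * g p.1) *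
        (ker K ψ j' p.2 (u' p.2) ζ * g' p.2)) hI]
  congr 1
  ext p
  unfold kap
  rw [← integral_const_mul]
  congr 1
  ext ζ
  ring

/-- the kernel `kap` is integrable against `g ⊗ g'` -/
theorem integrable_kap (hr : 0 < r) (hKc : Continuous K)
    (hψc : Continuous ψ) (hK : ∀ t, r ≤ |t| → K t = 0)
    (hψ : ∀ t, r' ≤ |t| → ψ t = 0) (j j' : ℕ) {u u' g g' : ℝ × ℝ → ℝ} (hu : Measurable u)
    (hu' : Measurable u') (hg : Integrable g) (hg' : Integrable g') :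
    Integrable (fun p : (ℝ × ℝ) × (ℝ × ℝ) => g p.1 * g' p.2 *
          kap K ψ j j' p.1 (u p.1) p.2 (u' p.2)) := by
  have hI := (integrable_tri hr hKc hψc hK hψ j j' hu hu' hg hg').integral_prod_left
  rw [Measure.volume_eq_prod (ℝ × ℝ) (ℝ × ℝ)]
  refine hI.congr (Filter.Eventually.of_forall fun p => ?_)
  simp only
  unfold kap
  rw [← integral_const_mul]
  congr 1
  ext ζ
  ring

end Fub

end Vale.Agent.P112.H601
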