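import Vale.Agent.P112.T.Defs
import Vale.Agent.P112.H601.T1

/-!
# P112, chapter (T): T1 in the literal form of `T/Defs.lean`
-/

open MeasureTheory Set
open scoped ContDiff

namespace Vale.Agent.P112.H601

open Vale.Agent.P112.T (StT1 Nice Field)

theorem nice_integrable {g : ℝ × ℝ → ℝ} (hg : Nice g) : Integrable g := by
  obtain ⟨C, hC⟩ := hg.bdd
  obtain ⟨r, hr⟩ := hg.supp
  have h1 : g = (Icc (-r) r ×ˢ Icc (-r) r).indicator g := by
    ext z
    by_cases hz : z ∈ Icc (-r) r ×ˢ Icc (-r) r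
    · rw [indicator_of_mem hz]
    · rw [indicator_of_notMem hz]
      apply hr
      by_contra hn
      push Not at hn
      apply hz
      rw [mem_prod]
      rw [abs_lt, abs_lt] at hn
      exact ⟨⟨hn.1.1.le, hn.1.2.le⟩, ⟨hn.2.1.le, hn.2.2.le⟩⟩
  rw [h1, integrable_indicator_iff (measurableSet_Icc.prod measurableSet_Icc)]
  refine Measure.integrableOn_of_bounded (M := C) ?_ hg.meas.aestronglyMeasurable
    (Filter.Eventually.of_forall fun z => by simpa using hC z)
  have h2 : IsCompact (Icc (-r) r ×ˢ Icc (-r) r) := isCompact_Icc.prod isCompact_Icc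
  exact h2.measure_lt_top.ne

theorem stT1 (M : ℕ) (κ : T.Ker M) : StT1 κ := by
  have hK : Bump (1 / 8) κ.K := ⟨κ.smoothK, κ.suppK⟩
  have hΦ : Bump 1 κ.Φ := ⟨κ.smoothΦ, κ.suppΦ⟩
  have hψc : Continuous (iteratedDeriv M κ.Φ) := (smooth_iter κ.smoothΦ M).continuous
  have hψ0 : ∀ {ρ : ℝ}, 1 < ρ → ∀ t, ρ ≤ |t| → iteratedDeriv M κ.Φ t = 0 :=
    fun {ρ} hρ t ht => hΦ.iter_zero M (by linarith)
  obtain ⟨C, hC0, hC⟩ := kap_bound (by norm_num : (0 : ℝ) < 1 / 8) one_pos hK hΦ M
  refine ⟨C, hC0, ?_, ?_⟩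
  · intro j j' hj v v' z z'
    have hj0 : (0 : ℝ) < 2 ^ j := by positivity
    have hj0' : (0 : ℝ) < 2 ^ j' := by positivity
    constructor
    · have h := hC j j' hj z v z' v'
      have e : κ.kap j j' v v' z z' = kap κ.K (iteratedDeriv M κ.Φ) j j' z v z' v' := rfl
      rw [e, le_div_iff₀ (by positivity), div_eq_mul_inv |v - v'|]
      exact h
    · intro hne
      have hne' : kap κ.K (iteratedDeriv M κ.Φ) j j' z v z' v' ≠ 0 := hne
      have hjj : ((2 : ℝ) ^ j)⁻¹ ≤ (2 ^ j')⁻¹ :=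
        inv_anti₀ hj0' (pow_le_pow_right₀ (by norm_num) hj)
      have hpos : 0 < ((2 : ℝ) ^ j')⁻¹ := by positivity
      have hx : |z.1 - z'.1| ≤ 1 / 2 ^ j' := by
        obtain ⟨h1, -⟩ := kap_supp (r := 1 / 8) (r' := 2) κ.suppK (hψ0 (by norm_num)) hne'
        rw [one_div]
        linarith
      refine ⟨hx, ?_⟩
      -- the support in `y`, with the closed condition
      refine le_of_forall_pos_le_add fun ε hε => ?_
      obtain ⟨-, h2⟩ := kap_supp (r := 1 / 8) (r' := 1 + ε / 2) κ.suppK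
        (hψ0 (by linarith)) hne'
      have h3 : |v - v'| * (1 / 8 * (2 ^ j)⁻¹) ≤ |v - v'| / 2 ^ j := by
        rw [div_eq_mul_inv]
        have h4 : 0 < ((2 : ℝ) ^ j)⁻¹ := by positivity
        exact mul_le_mul_of_nonneg_left (by linarith) (abs_nonneg _)
      linarith
  · intro u hu j j' g g' hg hg'
    have h := sop_inner (r := 1 / 8) (r' := 2) (by norm_num) κ.smoothK.continuous hψc κ.suppK
      (hψ0 (by norm_num)) j j' hu.meas hu.meas (nice_integrable hg) (nice_integrable hg')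
    have hI := integrable_kap (r := 1 / 8) (r' := 2) (by norm_num) κ.smoothK.continuous hψc κ.suppK
      (hψ0 (by norm_num)) j j' hu.meas hu.meas (nice_integrable hg) (nice_integrable hg')
    refine Eq.trans h ?_
    rw [Measure.volume_eq_prod (ℝ × ℝ) (ℝ × ℝ)] at hI ⊢
    rw [integral_prod _ hI]
    rfl

end Vale.Agent.P112.H601
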