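import Vale.Agent.P112.T.DefsN
import Vale.Agent.P112.H601.T1Main

/-!
# P112, chapter (T): T1 with the frequency parameter `N`
-/

open MeasureTheory Set
open scoped ContDiff

namespace Vale.Agent.P112.H601

open Vale.Agent.P112.T (StN1)

theorem inn_boundN {r : ℝ} (hr : 0 < r) {K χ : ℝ → ℝ} {r' : ℝ} (hK : Bump r K) (hχ : Bump r' χ)
    (M : ℕ) {B B0 B1 ν : ℝ} (hB0 : 0 < B) (hB : ∀ i ≤ M, ∀ t, |iteratedDeriv i K t| ≤ B)
    (h0 : ∀ t, |χ t| ≤ B0) (h1 : ∀ t, |iteratedDeriv M χ t| ≤ B1) (hν : 0 ≤ ν)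
    (j j' : ℕ) (hj : j' ≤ j) (x x' Δ c : ℝ) :
      |inn K χ M j j' x x' Δ c| * (1 + ν * |Δ| * (2 ^ j)⁻¹) ^ M ≤
        2 ^ M * (B ^ 2 * B1 * (2 * r) + 2 ^ M * B ^ 2 * B0 * ν ^ M * (2 * r)) * 2 ^ j' := by
  have hB0' : 0 ≤ B0 := (abs_nonneg _).trans (h0 0)
  have hB1' : 0 ≤ B1 := (abs_nonneg _).trans (h1 0)
  have hj0 : (0 : ℝ) < 2 ^ j := by positivity
  have hj0' : (0 : ℝ) < 2 ^ j' := by positivity
  have hρ : 0 < r * (2 ^ j)⁻¹ := by positivity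
  have e1 : |inn K χ M j j' x x' Δ c| ≤ B ^ 2 * B1 * (2 * r) * 2 ^ j' := by
    have h := int_bd (f := fun ξ => KK K j j' x x' ξ * iteratedDeriv M χ (c + Δ * ξ))
      (a := x - r * (2 ^ j)⁻¹) (b := x + r * (2 ^ j)⁻¹)
      (D := B ^ 2 * (2 ^ j * 2 ^ j') * B1) (by linarith) ?_ ?_
    · refine h.trans (le_of_eq ?_)
      field_simp
      ring
    · intro ξ
      rw [abs_mul]
      have h3 := KK_iter_bdd (M := 0) hK.sm hB0 (fun i hi t => hB i (by omega) t) hj x x' ξ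
      simp only [iteratedDeriv_zero, pow_zero, one_mul, mul_one] at h3
      have h4 := h1 (c + Δ * ξ)
      gcongr
    · intro ξ hξ
      have := not_Icc hξ
      simp only [KK_zero hK this.le, zero_mul]
  have e2 : |inn K χ M j j' x x' Δ c| * |Δ| ^ M
      ≤ 2 ^ M * B ^ 2 * B0 * (2 * r) * 2 ^ j' * (2 ^ j) ^ M := by
    have e : |inn K χ M j j' x x' Δ c| * |Δ| ^ M
        = |∫ ξ, iteratedDeriv M (KK K j j' x x') ξ * χ (c + Δ * ξ)| := by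
      have h := congrArg abs (inn_ibp hK hχ.sm M j j' x x' Δ c)
      rw [abs_mul, abs_mul, abs_pow, abs_pow] at h
      simp only [abs_neg, abs_one, one_pow, one_mul] at h
      rw [mul_comm]
      exact h
    rw [e]
    have h := int_bd (f := fun ξ => iteratedDeriv M (KK K j j' x x') ξ * χ (c + Δ * ξ))
      (a := x - r * (2 ^ j)⁻¹) (b := x + r * (2 ^ j)⁻¹)
      (D := 2 ^ M * B ^ 2 * (2 ^ j * 2 ^ j') * (2 ^ j) ^ M * B0) (by linarith) ?_ ?_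
    · refine h.trans (le_of_eq ?_)
      field_simp
      ring
    · intro ξ
      rw [abs_mul]
      have h3 := KK_iter_bdd (M := M) hK.sm hB0 hB hj x x' ξ
      have h4 := h0 (c + Δ * ξ)
      gcongr
    · intro ξ hξ
      have := not_Icc hξ
      simp only [KK_iter_zero hK j j' M this, zero_mul]
  have h3 : (1 + ν * |Δ| * (2 ^ j)⁻¹) ^ M ≤ 2 ^ M * (1 + ν ^ M * |Δ| ^ M * ((2 ^ j) ^ M)⁻¹) := by
    have h4 := add_pow_le (a := 1) (b := ν * |Δ| * (2 ^ j)⁻¹) zero_le_one (by positivity) M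
    refine h4.trans ?_
    rw [one_pow, mul_pow, inv_pow, mul_pow]
    gcongr
    · norm_num
    · omega
  calc |inn K χ M j j' x x' Δ c| * (1 + ν * |Δ| * (2 ^ j)⁻¹) ^ M
      ≤ |inn K χ M j j' x x' Δ c| * (2 ^ M * (1 + ν ^ M * |Δ| ^ M * ((2 ^ j) ^ M)⁻¹)) := by gcongr
    _ = 2 ^ M * (|inn K χ M j j' x x' Δ c| +
        ν ^ M * (|inn K χ M j j' x x' Δ c| * |Δ| ^ M) * ((2 ^ j) ^ M)⁻¹) := by ring
    _ ≤ 2 ^ M * (B ^ 2 * B1 * (2 * r) * 2 ^ j' +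
        ν ^ M * (2 ^ M * B ^ 2 * B0 * (2 * r) * 2 ^ j' * (2 ^ j) ^ M) * ((2 ^ j) ^ M)⁻¹) := by
        gcongr
    _ = 2 ^ M * (B ^ 2 * B1 * (2 * r) + 2 ^ M * B ^ 2 * B0 * ν ^ M * (2 * r)) * 2 ^ j' := by
        field_simp

theorem stN1 (M : ℕ) (C0 : ℝ) : StN1 M C0 := by
  refine ⟨2 ^ M * (max C0 1 ^ 4 + 2 ^ M * max C0 1 ^ 4) + 1, by positivity, ?_⟩
  intro N κ hκ j j' hj v v' z z'
  have hN : 1 ≤ N := hκ.one_le
  have hN0 : 0 < N := by linarith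
  have hK : Bump (1 / 8) κ.K := ⟨κ.smoothK, κ.suppK⟩
  have hΦ : Bump 1 κ.Φ := ⟨κ.smoothΦ, κ.suppΦ⟩
  set B := max C0 1 with hBdef
  have hB1 : 1 ≤ B := le_max_right _ _
  have hB0 : 0 < B := by linarith
  have hC0B : C0 ≤ B := le_max_left _ _
  have hNM : 0 < N ^ M := by positivity
  have hj0 : (0 : ℝ) < 2 ^ j := by positivity
  have hj0' : (0 : ℝ) < 2 ^ j' := by positivity
  have b1 : ∀ i ≤ M, ∀ t, |iteratedDeriv i κ.K t| ≤ B :=
    fun i hi t => (hκ.K_bd i (by omega) t).trans hC0B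
  have b2 : ∀ t, |κ.Φ t| ≤ B / N ^ M := by
    intro t
    have h := hκ.Φ_bd 0 (by omega) t
    rw [iteratedDeriv_zero, pow_zero, mul_one] at h
    exact h.trans (by gcongr)
  have b3 : ∀ t, |iteratedDeriv M κ.Φ t| ≤ B := by
    intro t
    have h := hκ.Φ_bd M (by omega) t
    rw [mul_div_assoc, div_self hNM.ne', mul_one] at h
    exact h.trans hC0B
  have hne : κ.kap j j' v v' z z' ≠ 0 → |z.1 - z'.1| ≤ 1 / 2 ^ j' ∧
      |z.2 - z'.2 - (z.1 - z'.1) * v'| ≤ 2 + |v - v'| / 2 ^ j := by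
    obtain ⟨C, -, hC, -⟩ := stT1 M κ
    exact (hC j j' hj v v' z z').2
  refine ⟨?_, hne⟩
  set D := (1 + N * |v - v'| / 2 ^ j) ^ M with hD
  have hD0 : 0 < D := by positivity
  have hDe : D = (1 + N * |v - v'| * (2 ^ j)⁻¹) ^ M := by rw [hD, div_eq_mul_inv]
  have hinn : ∀ c, |inn κ.K κ.Φ M j j' z.1 z'.1 (v - v') c| ≤
      2 ^ M * (B ^ 3 + 2 ^ M * B ^ 3) / 4 * 2 ^ j' / D := by
    intro c
    rw [le_div_iff₀ hD0, hDe]
    refine (inn_boundN (by norm_num : (0 : ℝ) < 1 / 8) hK hΦ M hB0 b1 b2 b3 hN0.le j j' hj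
      z.1 z'.1 (v - v') c).trans (le_of_eq ?_)
    field_simp
    ring
  have e : κ.kap j j' v v' z z' = ∫ s, iteratedDeriv M κ.Φ s *
        inn κ.K κ.Φ M j j' z.1 z'.1 (v - v') (z.2 - z'.2 - z.1 * v + z'.1 * v' + s) :=
    kap_eq (by norm_num : (0 : ℝ) < 1 / 8) hK hΦ M j j' z v z' v'
  rw [e]
  have h := int_bd (f := fun s => iteratedDeriv M κ.Φ s *
        inn κ.K κ.Φ M j j' z.1 z'.1 (v - v') (z.2 - z'.2 - z.1 * v + z'.1 * v' + s))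
      (a := 0 - 1) (b := 0 + 1) (D := B * (2 ^ M * (B ^ 3 + 2 ^ M * B ^ 3) / 4 * 2 ^ j' / D))
      (by linarith) ?_ ?_
  · refine h.trans ?_
    calc B * (2 ^ M * (B ^ 3 + 2 ^ M * B ^ 3) / 4 * 2 ^ j' / D) * (0 + 1 - (0 - 1))
        = (2 ^ M * (B ^ 4 + 2 ^ M * B ^ 4) / 2) * 2 ^ j' / D := by ring
      _ ≤ (2 ^ M * (B ^ 4 + 2 ^ M * B ^ 4) + 1) * 2 ^ j' / D := by
          gcongr
          have : 0 ≤ 2 ^ M * (B ^ 4 + 2 ^ M * B ^ 4) := by positivity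
          linarith
  · intro s
    rw [abs_mul]
    gcongr
    · exact b3 s
    · exact hinn _
  · intro s hs
    have h3 := not_Icc hs
    rw [zero_sub, abs_neg] at h3
    rw [hΦ.iter_zero M h3, zero_mul]

end Vale.Agent.P112.H601
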